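import Mathlib

/-!
# Linear circuits for the DFT with few large scalars

A linear circuit is a list of gates `u + v`, `u - v`, `c * u`; wires `0, ..., n-1` are the inputs,
wire `n` is the constant `0`, and wire `n + 1 + i` is gate number `i`.
We prove a determinant-potential lower bound for circuits computing `F_n`, in which any chosen gates
may be discarded at the price of one dimension each: restrict the input to the common kernel of the
discarded gates.
-/

namespace Vale.Agent.Results.P344.FewLargeScalars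

open Matrix Finset

/-- A gate of a linear circuit; operands are wire indices. An index that is not yet a wire
reads as the constant `0`. -/
inductive GateOp
  | add (a b : ℕ)
  | sub (a b : ℕ)
  | smul (c : ℂ) (a : ℕ)

/-- The value of a gate given the list of values of the wires so far. -/
def GateOp.eval (g : GateOp) (w : List ℂ) : ℂ :=
  match g with
  | .add a b => w.getD a 0 + w.getD b 0
  | .sub a b => w.getD a 0 - w.getD b 0
  | .smul c a => c * w.getD a 0

/-- The values of all wires on the input `x`: inputs, then the constant `0`, then the gates. -/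
def wires {n : ℕ} (gates : List GateOp) (x : Fin n → ℂ) : List ℂ :=
  gates.foldl (fun w g => w ++ [g.eval w]) (List.ofFn x ++ [0])

/-- The circuit `gates` with output wires `out` computes the unnormalized DFT `F_n`. -/
def Computes (n : ℕ) (gates : List GateOp) (out : Fin n → ℕ) : Prop :=
  ∀ (x : Fin n → ℂ) (j : Fin n), (wires gates x).getD (out j) 0 =
    ∑ k : Fin n, Complex.exp (2 * Real.pi * Complex.I * (j : ℂ) * (k : ℂ) / (n : ℂ)) * x k

/-- The logarithmic cost of a gate: `log 5` for an addition or subtraction,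
`log (1 + |c|^2)` for a multiplication by the scalar `c`. -/
noncomputable def logCost (g : GateOp) : ℝ :=
  match g with
  | .add _ _ => Real.log 5
  | .sub _ _ => Real.log 5
  | .smul c _ => Real.log (1 + ‖c‖ ^ 2)

open scoped Classical in
/-- `isLarge C g`: the gate `g` multiplies by a scalar of modulus larger than `C`. -/
noncomputable def isLarge (C : ℝ) (g : GateOp) : Bool :=
  match g with
  | .add _ _ => false
  | .sub _ _ => false
  | .smul c _ => decide (C < ‖c‖)

/-! ### Elementary facts on wires -/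

theorem wires_snoc {n : ℕ} (c : List GateOp) (g : GateOp) (x : Fin n → ℂ) :
    wires (c ++ [g]) x = wires c x ++ [g.eval (wires c x)] := by
  simp [wires, List.foldl_append]

theorem wires_length {n : ℕ} (c : List GateOp) (x : Fin n → ℂ) :
    (wires c x).length = n + 1 + c.length := by
  induction c using List.reverseRecOn with
  | nil => simp [wires]
  | append_singleton c g ih =>
    rw [wires_snoc, List.length_append, ih]
    simp
    omega

theorem wires_nil_getD {n : ℕ} (x : Fin n → ℂ) (w : ℕ) :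
    (wires [] x).getD w 0 = if h : w < n then x ⟨w, h⟩ else 0 := by
  simp only [wires, List.foldl_nil]
  split_ifs with h
  · rw [List.getD_append _ _ _ _ (by simpa using h)]
    simp [List.getD_eq_getElem?_getD, h]
  · by_cases h' : w = n
    · subst h'
      simp [List.getD_eq_getElem?_getD]
    · simp [List.getD_eq_getElem?_getD]
      rw [List.getElem?_eq_none (by simp; omega)]
      simp

theorem wires_snoc_getD_lt {n : ℕ} (c : List GateOp) (g : GateOp) (x : Fin n → ℂ) {w : ℕ}
    (hw : w < n + 1 + c.length) :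
    (wires (c ++ [g]) x).getD w 0 = (wires c x).getD w 0 := by
  rw [wires_snoc, List.getD_append _ _ _ _ (by rw [wires_length]; exact hw)]

theorem wires_snoc_getD_last {n : ℕ} (c : List GateOp) (g : GateOp) (x : Fin n → ℂ) :
    (wires (c ++ [g]) x).getD (n + 1 + c.length) 0 = g.eval (wires c x) := by
  rw [wires_snoc, List.getD_append_right _ _ _ _ (by rw [wires_length])]
  simp [wires_length]

theorem wires_snoc_getD_gt {n : ℕ} (c : List GateOp) (g : GateOp) (x : Fin n → ℂ) {w : ℕ}
    (hw : n + 1 + c.length < w) :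
    (wires (c ++ [g]) x).getD w 0 = 0 := by
  rw [List.getD_eq_getElem?_getD, List.getElem?_eq_none]
  · simp
  · rw [wires_length]; simp; omega

/-- Every wire is a linear form in the input. -/
theorem wire_linear {n : ℕ} (c : List GateOp) (w : ℕ) :
    ∃ f : (Fin n → ℂ) →ₗ[ℂ] ℂ, ∀ x, (wires c x).getD w 0 = f x := by
  induction c using List.reverseRecOn generalizing w with
  | nil =>
    by_cases h : w < n
    · refine ⟨LinearMap.proj ⟨w, h⟩, fun x => ?_⟩
      rw [wires_nil_getD, dif_pos h]; rfl
    · refine ⟨0, fun x => ?_⟩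
      rw [wires_nil_getD, dif_neg h]; rfl
  | append_singleton c g ih =>
    rcases lt_trichotomy w (n + 1 + c.length) with h | h | h
    · obtain ⟨f, hf⟩ := ih w
      exact ⟨f, fun x => by rw [wires_snoc_getD_lt c g x h, hf]⟩
    · subst h
      cases g with
      | add a b =>
        obtain ⟨fa, ha⟩ := ih a
        obtain ⟨fb, hb⟩ := ih b
        refine ⟨fa + fb, fun x => ?_⟩
        rw [wires_snoc_getD_last]
        simp only [GateOp.eval]
        rw [ha, hb]; rfl
      | sub a b =>
        obtain ⟨fa, ha⟩ := ih a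
        obtain ⟨fb, hb⟩ := ih b
        refine ⟨fa - fb, fun x => ?_⟩
        rw [wires_snoc_getD_last]
        simp only [GateOp.eval]
        rw [ha, hb]; rfl
      | smul c' a =>
        obtain ⟨fa, ha⟩ := ih a
        refine ⟨c' • fa, fun x => ?_⟩
        rw [wires_snoc_getD_last]
        simp only [GateOp.eval]
        rw [ha]; rfl
    · exact ⟨0, fun x => by rw [wires_snoc_getD_gt c g x h]; rfl⟩

theorem gate_linear {n : ℕ} (c : List GateOp) (g : GateOp) :
    ∃ f : (Fin n → ℂ) →ₗ[ℂ] ℂ, ∀ x, g.eval (wires c x) = f x := by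
  obtain ⟨f, hf⟩ := wire_linear (n := n) (c ++ [g]) (n + 1 + c.length)
  exact ⟨f, fun x => by rw [← hf, wires_snoc_getD_last]⟩

/-- The common kernel of the discarded gates has codimension at most their number. -/
theorem exists_subspace {n : ℕ} (bad : GateOp → Bool) (c : List GateOp) :
    ∃ W : Submodule ℂ (Fin n → ℂ),
      n ≤ Module.finrank ℂ W + c.countP bad ∧
      ∀ c1 g c2, c = c1 ++ g :: c2 → bad g = true → ∀ x ∈ W, g.eval (wires c1 x) = 0 := by
  induction c using List.reverseRecOn with
  | nil =>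
    refine ⟨⊤, by simp, ?_⟩
    intro c1 g c2 h
    simp at h
  | append_singleton c g ih =>
    obtain ⟨W, hW, hW'⟩ := ih
    have decomp : ∀ c1 h c2, c ++ [g] = c1 ++ h :: c2 →
        (c1 = c ∧ h = g) ∨ ∃ c2', c = c1 ++ h :: c2' := by
      intro c1 h c2 he
      rcases List.eq_nil_or_concat c2 with rfl | ⟨c3, a, rfl⟩
      · left
        have := List.append_inj' he (by simp)
        exact ⟨this.1.symm, by simpa using this.2.symm⟩
      · right
        refine ⟨c3, ?_⟩
        have : c ++ [g] = (c1 ++ h :: c3) ++ [a] := by simpa using he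
        exact (List.append_inj' this (by simp)).1
    by_cases hg : bad g = true
    · obtain ⟨f, hf⟩ := gate_linear (n := n) c g
      refine ⟨W ⊓ LinearMap.ker f, ?_, ?_⟩
      · have h1 := Submodule.finrank_sup_add_finrank_inf_eq W (LinearMap.ker f)
        have h2 := LinearMap.finrank_range_add_finrank_ker f
        have h3 : Module.finrank ℂ (LinearMap.range f) ≤ 1 := by
          simpa using Submodule.finrank_le (LinearMap.range f)
        have h4 : Module.finrank ℂ ↥(W ⊔ LinearMap.ker f) ≤ n := by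
          simpa using Submodule.finrank_le (W ⊔ LinearMap.ker f)
        have h5 : Module.finrank ℂ (Fin n → ℂ) = n := by simp
        rw [List.countP_append]
        simp [hg]
        omega
      · intro c1 h c2 he hb x hx
        rcases decomp c1 h c2 he with ⟨rfl, rfl⟩ | ⟨c2', he'⟩
        · rw [hf]; exact hx.2
        · exact hW' c1 h c2' he' hb x hx.1
    · refine ⟨W, ?_, ?_⟩
      · rw [List.countP_append]
        have : bad g = false := by simpa using hg
        simp [this]
        exact hW
      · intro c1 h c2 he hb x hx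
        rcases decomp c1 h c2 he with ⟨rfl, rfl⟩ | ⟨c2', he'⟩
        · exact absurd hb hg
        · exact hW' c1 h c2' he' hb x hx

/-! ### The Gram potential -/

/-- The Gram matrix of the row vectors `f w`, `w ∈ S`. -/
noncomputable def gram {r : ℕ} (f : ℕ → Fin r → ℂ) (S : Finset ℕ) : Matrix (Fin r) (Fin r) ℂ :=
  ∑ w ∈ S, vecMulVec (star (f w)) (f w)

theorem gram_quad {r : ℕ} (f : ℕ → Fin r → ℂ) (S : Finset ℕ) (y : Fin r → ℂ) :
    star y ⬝ᵥ (gram f S *ᵥ y) = ((∑ w ∈ S, ‖f w ⬝ᵥ y‖ ^ 2 : ℝ) : ℂ) := by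
  unfold gram
  rw [Matrix.sum_mulVec, dotProduct_sum]
  push_cast
  refine Finset.sum_congr rfl fun w _ => ?_
  rw [vecMulVec_mulVec, ← Complex.conj_mul']
  simp only [dotProduct_smul]
  rw [star_dotProduct_star, op_smul_eq_mul]
  rw [Complex.star_def, mul_comm]

/-- One rank-one update of the Gram matrix multiplies the determinant by `1 + Q` with `Q ≥ 0`,
where `Q` is the squared length of a suitable vector. -/
theorem gram_step {r : ℕ} (f : ℕ → Fin r → ℂ) (S : Finset ℕ) (v : Fin r → ℂ)
    (hdet : (gram f S).det ≠ 0) :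
    ∃ (Q : ℝ) (y : Fin r → ℂ), 0 ≤ Q ∧ Q = ∑ w ∈ S, ‖f w ⬝ᵥ y‖ ^ 2 ∧ v ⬝ᵥ y = (Q : ℂ) ∧
      (gram f S + vecMulVec (star v) v).det = (gram f S).det * (1 + (Q : ℂ)) := by
  set M := gram f S with hM
  have hunit : IsUnit M.det := isUnit_iff_ne_zero.mpr hdet
  set y : Fin r → ℂ := M⁻¹ *ᵥ star v with hy
  have hMy : M *ᵥ y = star v := by
    rw [hy, mulVec_mulVec, Matrix.mul_nonsing_inv _ hunit, one_mulVec]
  set Q : ℝ := ∑ w ∈ S, ‖f w ⬝ᵥ y‖ ^ 2 with hQ
  have hq : star y ⬝ᵥ (M *ᵥ y) = (Q : ℂ) := gram_quad f S y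
  have hc : v ⬝ᵥ y = (Q : ℂ) := by
    rw [hMy, star_dotProduct_star] at hq
    have := congrArg star hq
    simpa using this
  refine ⟨Q, y, ?_, rfl, hc, ?_⟩
  · exact Finset.sum_nonneg fun w _ => by positivity
  · have hcol : vecMulVec (star v) v =
        replicateCol Unit (star v) * replicateRow Unit v := by
      ext i j
      simp [vecMulVec_apply, Matrix.mul_apply]
    rw [hcol, det_add_replicateCol_mul_replicateRow hunit]
    congr 1
    rw [det_unique]
    simp only [Matrix.add_apply, Matrix.one_apply_eq]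
    congr 1
    rw [← hc, hy]
    simp [Matrix.mul_apply, dotProduct, mulVec, Finset.mul_sum]
    simp only [Finset.sum_mul]
    rw [Finset.sum_comm]
    exact Finset.sum_congr rfl fun i _ => Finset.sum_congr rfl fun j _ => by ring

theorem gram_insert {r : ℕ} (f : ℕ → Fin r → ℂ) {S : Finset ℕ} {a : ℕ} (ha : a ∉ S) :
    gram f (insert a S) = gram f S + vecMulVec (star (f a)) (f a) := by
  unfold gram
  rw [Finset.sum_insert ha, add_comm]

/-- The determinant of a Gram matrix grows when rows are added. -/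
theorem gram_det_mono {r : ℕ} (f : ℕ → Fin r → ℂ) (S E : Finset ℕ) (hd : Disjoint S E)
    (D : ℝ) (hD : 0 < D) (h : (gram f S).det = (D : ℂ)) :
    ∃ D' : ℝ, D ≤ D' ∧ (gram f (S ∪ E)).det = (D' : ℂ) := by
  classical
  induction E using Finset.induction_on with
  | empty => exact ⟨D, le_rfl, by simpa using h⟩
  | insert a E' haE ih =>
    have hd' : Disjoint S E' := hd.mono_right (Finset.subset_insert _ _)
    obtain ⟨D1, hD1, hdet1⟩ := ih hd'
    have haS : a ∉ S := fun ha => (Finset.disjoint_left.mp hd ha) (Finset.mem_insert_self _ _)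
    have ha' : a ∉ S ∪ E' := by simp [haS, haE]
    have hne : (gram f (S ∪ E')).det ≠ 0 := by
      rw [hdet1]
      exact_mod_cast (lt_of_lt_of_le hD hD1).ne'
    obtain ⟨Q, y, hQ0, -, -, hstep⟩ := gram_step f (S ∪ E') (f a) hne
    refine ⟨D1 * (1 + Q), ?_, ?_⟩
    · nlinarith
    · rw [Finset.union_insert, gram_insert f ha', hstep, hdet1]
      push_cast
      rfl

/-- The row of wire `w`: its values on the vectors `b i`. -/
def rowOf {n r : ℕ} (b : Fin r → Fin n → ℂ) (c : List GateOp) (w : ℕ) : Fin r → ℂ :=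
  fun i => (wires c (b i)).getD w 0

theorem gram_rowOf_snoc {n r : ℕ} (b : Fin r → Fin n → ℂ) (c : List GateOp) (g : GateOp) :
    gram (rowOf b (c ++ [g])) (range (n + 1 + (c ++ [g]).length)) =
      gram (rowOf b c) (range (n + 1 + c.length)) +
        vecMulVec (star fun i => g.eval (wires c (b i))) (fun i => g.eval (wires c (b i))) := by
  have hlen : n + 1 + (c ++ [g]).length = (n + 1 + c.length) + 1 := by simp; omega
  have hlast : rowOf b (c ++ [g]) (n + 1 + c.length) = fun i => g.eval (wires c (b i)) := by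
    funext i; exact wires_snoc_getD_last c g (b i)
  unfold gram
  rw [hlen, Finset.sum_range_succ, hlast]
  congr 1
  refine Finset.sum_congr rfl fun w hw => ?_
  have hw' : w < n + 1 + c.length := Finset.mem_range.mp hw
  have : rowOf b (c ++ [g]) w = rowOf b c w := by
    funext i; exact wires_snoc_getD_lt c g (b i) hw'
  rw [this]

theorem rowOf_sq_le {n r : ℕ} (b : Fin r → Fin n → ℂ) (c : List GateOp) (a : ℕ) (y : Fin r → ℂ) :
    ‖rowOf b c a ⬝ᵥ y‖ ^ 2 ≤ ∑ w ∈ range (n + 1 + c.length), ‖rowOf b c w ⬝ᵥ y‖ ^ 2 := by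
  by_cases ha : a < n + 1 + c.length
  · exact Finset.single_le_sum (f := fun w => ‖rowOf b c w ⬝ᵥ y‖ ^ 2)
      (fun w _ => by positivity) (Finset.mem_range.mpr ha)
  · have : rowOf b c a = 0 := by
      funext i
      simp only [rowOf, Pi.zero_apply]
      rw [List.getD_eq_getElem?_getD, List.getElem?_eq_none]
      · simp
      · rw [wires_length]; omega
    rw [this]
    simp only [zero_dotProduct, norm_zero]
    have : (0 : ℝ) ≤ ∑ w ∈ range (n + 1 + c.length), ‖rowOf b c w ⬝ᵥ y‖ ^ 2 :=
      Finset.sum_nonneg fun w _ => by positivity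
    simpa using this

theorem le_of_sq_le {Q κ : ℝ} (hQ : 0 ≤ Q) (hκ : 0 ≤ κ) (h : Q ^ 2 ≤ κ * Q) : Q ≤ κ := by
  by_contra hc
  push Not at hc
  nlinarith

theorem exp_logCost {g : GateOp} : Real.exp (logCost g) =
    match g with
    | .add _ _ => 5
    | .sub _ _ => 5
    | .smul c _ => 1 + ‖c‖ ^ 2 := by
  cases g with
  | add a b => exact Real.exp_log (by norm_num)
  | sub a b => exact Real.exp_log (by norm_num)
  | smul c a =>
    simp only [logCost]
    exact Real.exp_log (by positivity)

/-- One gate multiplies the determinant of the Gram matrix by at most `exp (logCost g)`. -/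
theorem gate_factor {n r : ℕ} (b : Fin r → Fin n → ℂ) (c : List GateOp) (g : GateOp)
    (hne : (gram (rowOf b c) (range (n + 1 + c.length))).det ≠ 0) :
    ∃ Q : ℝ, 0 ≤ Q ∧ 1 + Q ≤ Real.exp (logCost g) ∧
      (gram (rowOf b c) (range (n + 1 + c.length)) +
        vecMulVec (star fun i => g.eval (wires c (b i))) (fun i => g.eval (wires c (b i)))).det =
      (gram (rowOf b c) (range (n + 1 + c.length))).det * (1 + (Q : ℂ)) := by
  obtain ⟨Q, y, hQ0, hQ, hv, hdet⟩ :=
    gram_step (rowOf b c) (range (n + 1 + c.length)) (fun i => g.eval (wires c (b i))) hne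
  refine ⟨Q, hQ0, ?_, hdet⟩
  have hvnorm : ‖(fun i => g.eval (wires c (b i))) ⬝ᵥ y‖ ^ 2 = Q ^ 2 := by
    rw [hv]; simp [Complex.norm_real, abs_of_nonneg hQ0]
  have hle : ∀ a, ‖rowOf b c a ⬝ᵥ y‖ ^ 2 ≤ Q := fun a => by
    rw [hQ]; exact rowOf_sq_le b c a y
  rw [exp_logCost]
  cases g with
  | add a a' =>
    have hdot : (fun i => (GateOp.add a a').eval (wires c (b i))) ⬝ᵥ y =
        rowOf b c a ⬝ᵥ y + rowOf b c a' ⬝ᵥ y := by
      rw [← add_dotProduct]; rfl
    rw [hdot] at hvnorm
    have h1 := hle a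
    have h2 := hle a'
    have h3 : ‖rowOf b c a ⬝ᵥ y + rowOf b c a' ⬝ᵥ y‖ ≤ ‖rowOf b c a ⬝ᵥ y‖ + ‖rowOf b c a' ⬝ᵥ y‖ :=
      norm_add_le _ _
    have h4 : ‖rowOf b c a ⬝ᵥ y + rowOf b c a' ⬝ᵥ y‖ ^ 2 ≤ 4 * Q := by
      have h5 : 0 ≤ ‖rowOf b c a ⬝ᵥ y + rowOf b c a' ⬝ᵥ y‖ := norm_nonneg _
      nlinarith [sq_nonneg (‖rowOf b c a ⬝ᵥ y‖ - ‖rowOf b c a' ⬝ᵥ y‖), norm_nonneg (rowOf b c a ⬝ᵥ y),
        norm_nonneg (rowOf b c a' ⬝ᵥ y)]
    have := le_of_sq_le hQ0 (by norm_num : (0 : ℝ) ≤ 4) (by rw [← hvnorm]; exact h4)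
    show 1 + Q ≤ 5
    linarith
  | sub a a' =>
    have hdot : (fun i => (GateOp.sub a a').eval (wires c (b i))) ⬝ᵥ y =
        rowOf b c a ⬝ᵥ y - rowOf b c a' ⬝ᵥ y := by
      rw [← sub_dotProduct]; rfl
    rw [hdot] at hvnorm
    have h1 := hle a
    have h2 := hle a'
    have h3 : ‖rowOf b c a ⬝ᵥ y - rowOf b c a' ⬝ᵥ y‖ ≤ ‖rowOf b c a ⬝ᵥ y‖ + ‖rowOf b c a' ⬝ᵥ y‖ :=
      norm_sub_le _ _
    have h4 : ‖rowOf b c a ⬝ᵥ y - rowOf b c a' ⬝ᵥ y‖ ^ 2 ≤ 4 * Q := by
      have h5 : 0 ≤ ‖rowOf b c a ⬝ᵥ y - rowOf b c a' ⬝ᵥ y‖ := norm_nonneg _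
      nlinarith [sq_nonneg (‖rowOf b c a ⬝ᵥ y‖ - ‖rowOf b c a' ⬝ᵥ y‖), norm_nonneg (rowOf b c a ⬝ᵥ y),
        norm_nonneg (rowOf b c a' ⬝ᵥ y)]
    have := le_of_sq_le hQ0 (by norm_num : (0 : ℝ) ≤ 4) (by rw [← hvnorm]; exact h4)
    show 1 + Q ≤ 5
    linarith
  | smul c' a =>
    have hdot : (fun i => (GateOp.smul c' a).eval (wires c (b i))) ⬝ᵥ y =
        c' * (rowOf b c a ⬝ᵥ y) := by
      have : (fun i => (GateOp.smul c' a).eval (wires c (b i))) = c' • rowOf b c a := by
        funext i; rfl
      rw [this, smul_dotProduct]; rfl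
    rw [hdot, norm_mul, mul_pow] at hvnorm
    have h1 := hle a
    have h4 : Q ^ 2 ≤ ‖c'‖ ^ 2 * Q := by
      rw [← hvnorm]
      exact mul_le_mul_of_nonneg_left h1 (by positivity)
    have := le_of_sq_le hQ0 (by positivity) h4
    show 1 + Q ≤ 1 + ‖c'‖ ^ 2
    linarith

/-- The Gram determinant over all wires is at most the initial one times the exponential of the
total logarithmic cost of the gates that are not discarded. -/
theorem potential_upper {n r : ℕ} (b : Fin r → Fin n → ℂ) (bad : GateOp → Bool) (c : List GateOp)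
    (D0 : ℝ) (hD0 : 0 < D0) (h0 : (gram (rowOf b []) (range (n + 1))).det = (D0 : ℂ))
    (hbad : ∀ c1 g c2, c = c1 ++ g :: c2 → bad g = true → ∀ i, g.eval (wires c1 (b i)) = 0) :
    ∃ D : ℝ, 0 < D ∧
      D ≤ D0 * Real.exp ((c.filter fun g => !bad g).map logCost).sum ∧
      (gram (rowOf b c) (range (n + 1 + c.length))).det = (D : ℂ) := by
  induction c using List.reverseRecOn with
  | nil =>
    refine ⟨D0, hD0, by simp, ?_⟩
    simpa using h0
  | append_singleton c g ih =>
    have hbad' : ∀ c1 h c2, c = c1 ++ h :: c2 → bad h = true →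
        ∀ i, h.eval (wires c1 (b i)) = 0 := by
      intro c1 h c2 he hb i
      exact hbad c1 h (c2 ++ [g]) (by rw [he]; simp) hb i
    obtain ⟨D, hD, hDle, hdet⟩ := ih hbad'
    have hne : (gram (rowOf b c) (range (n + 1 + c.length))).det ≠ 0 := by
      rw [hdet]; exact_mod_cast hD.ne'
    rw [gram_rowOf_snoc]
    by_cases hg : bad g = true
    · have hv : (fun i => g.eval (wires c (b i))) = 0 := by
        funext i
        exact hbad c g [] rfl hg i
      refine ⟨D, hD, ?_, ?_⟩
      · simpa [List.filter_append, hg] using hDle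
      · have h00 : vecMulVec (star (0 : Fin r → ℂ)) (0 : Fin r → ℂ) = 0 := by
          ext i j; simp [vecMulVec_apply]
        rw [hv, h00, add_zero]
        exact hdet
    · obtain ⟨Q, hQ0, hQle, hstep⟩ := gate_factor b c g hne
      have hg' : bad g = false := by simpa using hg
      refine ⟨D * (1 + Q), by positivity, ?_, ?_⟩
      · simp only [List.filter_append, List.filter_cons, hg', Bool.not_false, if_true,
          List.filter_nil, List.map_append, List.map_cons, List.map_nil, List.sum_append,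
          List.sum_cons, List.sum_nil, add_zero, Real.exp_add]
        have he : 0 ≤ Real.exp ((c.filter fun g => !bad g).map logCost).sum := (Real.exp_pos _).le
        calc D * (1 + Q) ≤ (D0 * Real.exp ((c.filter fun g => !bad g).map logCost).sum) *
              Real.exp (logCost g) :=
              mul_le_mul hDle hQle (by linarith) (by positivity)
          _ = _ := by ring
      · rw [hstep, hdet]; push_cast; rfl

/-! ### The DFT -/

theorem dft_entry (n : ℕ) (j k : ℕ) :
    Complex.exp (2 * Real.pi * Complex.I * (j : ℂ) * (k : ℂ) / (n : ℂ)) =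
      (Complex.exp (2 * Real.pi * Complex.I / (n : ℂ))) ^ (j * k) := by
  rw [← Complex.exp_nat_mul]
  congr 1
  push_cast
  ring

theorem dft_orth {n : ℕ} (hn : 0 < n) (k k' : Fin n) :
    ∑ j : Fin n, (starRingEnd ℂ)
        (Complex.exp (2 * Real.pi * Complex.I * (j : ℂ) * (k : ℂ) / (n : ℂ))) *
      Complex.exp (2 * Real.pi * Complex.I * (j : ℂ) * (k' : ℂ) / (n : ℂ)) =
    if k = k' then (n : ℂ) else 0 := by
  set ζ := Complex.exp (2 * Real.pi * Complex.I / (n : ℂ)) with hζ
  have hprim : IsPrimitiveRoot ζ n := Complex.isPrimitiveRoot_exp n hn.ne'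
  have hnorm : ‖ζ‖ = 1 := hprim.norm'_eq_one hn.ne'
  have hconj : (starRingEnd ℂ) ζ * ζ = 1 := by
    rw [mul_comm, Complex.mul_conj, Complex.normSq_eq_norm_sq, hnorm]; simp
  set τ := (starRingEnd ℂ) (ζ ^ (k : ℕ)) * ζ ^ (k' : ℕ) with hτ
  have hterm : ∀ j : Fin n, (starRingEnd ℂ)
        (Complex.exp (2 * Real.pi * Complex.I * (j : ℂ) * (k : ℂ) / (n : ℂ))) *
      Complex.exp (2 * Real.pi * Complex.I * (j : ℂ) * (k' : ℂ) / (n : ℂ)) = τ ^ (j : ℕ) := by
    intro j
    have e1 := dft_entry n j k
    have e2 := dft_entry n j k'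
    rw [← hζ] at e1 e2
    rw [e1, e2, hτ, mul_pow, map_pow, map_pow, ← pow_mul, ← pow_mul,
      mul_comm (j : ℕ), mul_comm (j : ℕ)]
  rw [Finset.sum_congr rfl fun j _ => hterm j, Fin.sum_univ_eq_sum_range (fun j => τ ^ j) n]
  have hconjk : (starRingEnd ℂ) (ζ ^ (k : ℕ)) * ζ ^ (k : ℕ) = 1 := by
    rw [map_pow, ← mul_pow, hconj, one_pow]
  split_ifs with h
  · subst h
    have : τ = 1 := hconjk
    rw [this]
    simp
  · have hτ1 : τ ≠ 1 := by
      intro h1
      have : ζ ^ (k' : ℕ) = ζ ^ (k : ℕ) := by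
        calc ζ ^ (k' : ℕ) = ((starRingEnd ℂ) (ζ ^ (k : ℕ)) * ζ ^ (k : ℕ)) * ζ ^ (k' : ℕ) := by
              rw [hconjk, one_mul]
          _ = ζ ^ (k : ℕ) * τ := by rw [hτ]; ring
          _ = ζ ^ (k : ℕ) := by rw [h1, mul_one]
      exact h (Fin.ext (hprim.pow_inj k'.isLt k.isLt this).symm)
    have hτn : τ ^ n = 1 := by
      rw [hτ, mul_pow, map_pow, ← pow_mul, ← pow_mul, mul_comm (k : ℕ), mul_comm (k' : ℕ),
        pow_mul, pow_mul, hprim.pow_eq_one, one_pow, mul_one, ← map_pow, hprim.pow_eq_one]
      simp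
    have := mul_neg_geom_sum τ n
    rw [hτn, sub_self] at this
    have h2 : (1 - τ) ≠ 0 := sub_ne_zero.mpr (Ne.symm hτ1)
    exact (mul_eq_zero.mp this).resolve_left h2

/-- The rows of the DFT as functions of the wires: outputs are distinct wires. -/
theorem out_injective {n : ℕ} (hn : 2 ≤ n) {c : List GateOp} {out : Fin n → ℕ}
    (h : Computes n c out) : Function.Injective out := by
  intro j j' hjj
  have hn0 : 0 < n := by omega
  have hprim := Complex.isPrimitiveRoot_exp n hn0.ne'
  let one : Fin n := ⟨1, by omega⟩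
  have := h (Pi.single one 1) j
  rw [hjj, h (Pi.single one 1) j'] at this
  simp only [Pi.single_apply, mul_ite, mul_one, mul_zero, Finset.sum_ite_eq', Finset.mem_univ,
    if_true] at this
  rw [dft_entry, dft_entry] at this
  have hj := hprim.pow_inj (by simpa [one] using j'.isLt) (by simpa [one] using j.isLt) this
  apply Fin.ext
  simpa [one] using hj.symm

theorem out_lt {n : ℕ} (hn : 2 ≤ n) {c : List GateOp} {out : Fin n → ℕ}
    (h : Computes n c out) (j : Fin n) : out j < n + 1 + c.length := by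
  by_contra hc
  have hn0 : 0 < n := by omega
  let zero : Fin n := ⟨0, hn0⟩
  have := h (Pi.single zero 1) j
  rw [List.getD_eq_getElem?_getD, List.getElem?_eq_none (by rw [wires_length]; omega)] at this
  simp only [Pi.single_apply, mul_ite, mul_one, mul_zero, Finset.sum_ite_eq', Finset.mem_univ,
    if_true] at this
  rw [dft_entry] at this
  simp [zero] at this

theorem rowOf_nil {n r : ℕ} (b : Fin r → Fin n → ℂ) (k : Fin n) :
    rowOf b [] k = fun i => b i k := by
  funext i
  simp only [rowOf]
  rw [wires_nil_getD, dif_pos k.isLt]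

theorem rowOf_nil_n {n r : ℕ} (b : Fin r → Fin n → ℂ) : rowOf b [] n = 0 := by
  funext i
  simp only [rowOf]
  rw [wires_nil_getD, dif_neg (lt_irrefl n)]
  rfl

/-- The initial Gram matrix in coordinates. -/
theorem gram_nil_apply {n r : ℕ} (b : Fin r → Fin n → ℂ) (i i' : Fin r) :
    gram (rowOf b []) (range (n + 1)) i i' =
      ∑ k : Fin n, (starRingEnd ℂ) (b i k) * b i' k := by
  unfold gram
  rw [Matrix.sum_apply, Finset.sum_range_succ, rowOf_nil_n, ← Fin.sum_univ_eq_sum_range]
  simp only [vecMulVec_apply, Pi.zero_apply, mul_zero, add_zero, rowOf_nil, Pi.star_apply]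
  rfl

/-- The Gram matrix of the output wires is `n` times the initial one. -/
theorem gram_out {n r : ℕ} (hn : 2 ≤ n) (b : Fin r → Fin n → ℂ) {c : List GateOp} {out : Fin n → ℕ}
    (h : Computes n c out) :
    gram (rowOf b c) (univ.image out) = (n : ℂ) • gram (rowOf b []) (range (n + 1)) := by
  have hn0 : 0 < n := by omega
  ext i i'
  have hinj := out_injective hn h
  rw [Matrix.smul_apply, gram_nil_apply, smul_eq_mul]
  unfold gram
  rw [Finset.sum_image (fun x _ y _ hxy => hinj hxy)]
  simp only [Matrix.sum_apply, vecMulVec_apply, Pi.star_apply]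
  have hr : ∀ (i : Fin r) (j : Fin n), rowOf b c (out j) i =
      ∑ k : Fin n, Complex.exp (2 * Real.pi * Complex.I * (j : ℂ) * (k : ℂ) / (n : ℂ)) * b i k :=
    fun i j => h (b i) j
  calc ∑ j : Fin n, star (rowOf b c (out j) i) * rowOf b c (out j) i'
      = ∑ j : Fin n, ∑ k : Fin n, ∑ k' : Fin n,
        ((starRingEnd ℂ) (Complex.exp (2 * Real.pi * Complex.I * (j : ℂ) * (k : ℂ) / (n : ℂ))) *
          Complex.exp (2 * Real.pi * Complex.I * (j : ℂ) * (k' : ℂ) / (n : ℂ))) *
          ((starRingEnd ℂ) (b i k) * b i' k') := by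
        refine Finset.sum_congr rfl fun j _ => ?_
        rw [hr, hr, Complex.star_def, map_sum, Finset.sum_mul_sum]
        refine Finset.sum_congr rfl fun k _ => Finset.sum_congr rfl fun k' _ => ?_
        rw [map_mul]
        ring
    _ = ∑ k : Fin n, ∑ k' : Fin n, (∑ j : Fin n,
        (starRingEnd ℂ) (Complex.exp (2 * Real.pi * Complex.I * (j : ℂ) * (k : ℂ) / (n : ℂ))) *
          Complex.exp (2 * Real.pi * Complex.I * (j : ℂ) * (k' : ℂ) / (n : ℂ))) *
          ((starRingEnd ℂ) (b i k) * b i' k') := by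
        rw [Finset.sum_comm]
        refine Finset.sum_congr rfl fun k _ => ?_
        rw [Finset.sum_comm]
        refine Finset.sum_congr rfl fun k' _ => ?_
        rw [Finset.sum_mul]
    _ = ∑ k : Fin n, (n : ℂ) * ((starRingEnd ℂ) (b i k) * b i' k) := by
        refine Finset.sum_congr rfl fun k _ => ?_
        simp only [dft_orth hn0, ite_mul, zero_mul]
        rw [Finset.sum_ite_eq]
        simp
    _ = (n : ℂ) * ∑ k : Fin n, (starRingEnd ℂ) (b i k) * b i' k := by
        rw [Finset.mul_sum]

theorem gram_hermitian {r : ℕ} (f : ℕ → Fin r → ℂ) (S : Finset ℕ) : (gram f S).IsHermitian := by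
  unfold gram IsHermitian
  rw [conjTranspose_sum]
  refine Finset.sum_congr rfl fun w _ => ?_
  ext i j
  simp [conjTranspose_apply, vecMulVec_apply, mul_comm]

open scoped ComplexOrder in
/-- The initial Gram determinant is a positive real number when the `b i` are independent. -/
theorem gram_nil_det {n r : ℕ} (b : Fin r → Fin n → ℂ) (hb : LinearIndependent ℂ b) :
    ∃ D0 : ℝ, 0 < D0 ∧ (gram (rowOf b []) (range (n + 1))).det = (D0 : ℂ) := by
  have hPD : (gram (rowOf b []) (range (n + 1))).PosDef := by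
    refine posDef_iff_dotProduct_mulVec.mpr ⟨gram_hermitian _ _, fun y hy => ?_⟩
    rw [gram_quad]
    have hne : (∑ i, y i • b i) ≠ 0 := by
      intro h0
      have := Fintype.linearIndependent_iff.mp hb y h0
      exact hy (funext this)
    obtain ⟨k, hk⟩ := Function.ne_iff.mp hne
    have hk' : rowOf b [] k ⬝ᵥ y ≠ 0 := by
      rw [rowOf_nil]
      intro h0
      apply hk
      simp only [Finset.sum_apply, Pi.smul_apply, smul_eq_mul, Pi.zero_apply]
      rw [← h0]
      simp [dotProduct, mul_comm]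
    have hpos : 0 < ∑ w ∈ range (n + 1), ‖rowOf b [] w ⬝ᵥ y‖ ^ 2 := by
      refine Finset.sum_pos' (fun w _ => by positivity) ⟨k, ?_, ?_⟩
      · exact Finset.mem_range.mpr (by omega)
      · have : 0 < ‖rowOf b [] k ⬝ᵥ y‖ := norm_pos_iff.mpr hk'
        positivity
    exact_mod_cast hpos
  have hdet := hPD.det_pos
  have hre := (Complex.lt_def.mp hdet)
  refine ⟨(gram (rowOf b []) (range (n + 1))).det.re, by simpa using hre.1, ?_⟩
  apply Complex.ext
  · simp
  · simpa using hre.2.symm

/-- The main inequality. -/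
theorem main_ineq {n : ℕ} (hn : 2 ≤ n) {c : List GateOp} {out : Fin n → ℕ} (h : Computes n c out)
    (bad : GateOp → Bool) :
    ((n : ℝ) - (c.countP bad : ℝ)) * Real.log n ≤ ((c.filter fun g => !bad g).map logCost).sum := by
  classical
  obtain ⟨W, hW, hW'⟩ := exists_subspace (n := n) bad c
  set r := Module.finrank ℂ W with hr
  let β := Module.finBasis ℂ W
  let b : Fin r → Fin n → ℂ := fun i => (β i : Fin n → ℂ)
  have hb : LinearIndependent ℂ b :=
    β.linearIndependent.map' W.subtype (Submodule.ker_subtype W)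
  have hbad : ∀ c1 g c2, c = c1 ++ g :: c2 → bad g = true → ∀ i, g.eval (wires c1 (b i)) = 0 :=
    fun c1 g c2 he hg i => hW' c1 g c2 he hg _ (β i).2
  obtain ⟨D0, hD0, hdet0⟩ := gram_nil_det b hb
  obtain ⟨D, hD, hDle, hdet⟩ := potential_upper b bad c D0 hD0 hdet0 hbad
  have hn0 : (0 : ℝ) < n := by exact_mod_cast (by omega : 0 < n)
  -- the Gram determinant of the output rows
  have hO : (gram (rowOf b c) (univ.image out)).det = (((n : ℝ) ^ r * D0 : ℝ) : ℂ) := by
    rw [gram_out hn b h, det_smul, hdet0, Fintype.card_fin]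
    push_cast
    rfl
  set N := n + 1 + c.length with hN
  have hsub : univ.image out ⊆ range N := by
    intro w hw
    obtain ⟨j, -, rfl⟩ := Finset.mem_image.mp hw
    exact Finset.mem_range.mpr (out_lt hn h j)
  obtain ⟨D', hD', hdet'⟩ := gram_det_mono (rowOf b c) (univ.image out) (range N \ univ.image out)
    Finset.disjoint_sdiff _ (by positivity) hO
  rw [Finset.union_sdiff_of_subset hsub] at hdet'
  have hDD : D' = D := by
    have := hdet'.symm.trans hdet
    exact_mod_cast this
  have hfinal : (n : ℝ) ^ r ≤ Real.exp ((c.filter fun g => !bad g).map logCost).sum := by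
    have h1 : (n : ℝ) ^ r * D0 ≤ D0 * Real.exp ((c.filter fun g => !bad g).map logCost).sum := by
      calc (n : ℝ) ^ r * D0 ≤ D' := hD'
        _ = D := hDD
        _ ≤ _ := hDle
    have h2 : D0 * (n : ℝ) ^ r ≤ D0 * Real.exp ((c.filter fun g => !bad g).map logCost).sum := by
      linarith
    exact le_of_mul_le_mul_left h2 hD0
  have hlog : (r : ℝ) * Real.log n ≤ ((c.filter fun g => !bad g).map logCost).sum := by
    have := (Real.log_le_iff_le_exp (by positivity)).mpr hfinal
    rwa [Real.log_pow] at this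
  have hlogn : 0 ≤ Real.log n := Real.log_natCast_nonneg n
  have hcast : (n : ℝ) - (c.countP bad : ℝ) ≤ r := by
    have : (n : ℝ) ≤ (r : ℝ) + (c.countP bad : ℝ) := by exact_mod_cast hW
    linarith
  calc ((n : ℝ) - (c.countP bad : ℝ)) * Real.log n ≤ (r : ℝ) * Real.log n :=
        mul_le_mul_of_nonneg_right hcast hlogn
    _ ≤ _ := hlog

theorem logCost_le_of_not_large {C : ℝ} (hC : 0 ≤ C) (g : GateOp) (hg : isLarge C g = false) :
    logCost g ≤ Real.log (max 5 (1 + C ^ 2)) := by
  have h5 : (0 : ℝ) < 5 := by norm_num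
  cases g with
  | add a b => exact Real.log_le_log h5 (le_max_left _ _)
  | sub a b => exact Real.log_le_log h5 (le_max_left _ _)
  | smul c a =>
    have hc : ‖c‖ ≤ C := by
      simpa [isLarge] using hg
    refine Real.log_le_log (by positivity) (le_trans ?_ (le_max_right _ _))
    have : ‖c‖ ^ 2 ≤ C ^ 2 := pow_le_pow_left₀ (norm_nonneg _) hc 2
    linarith

theorem sum_filter_le {C : ℝ} (hC : 0 ≤ C) (c : List GateOp) :
    ((c.filter fun g => !isLarge C g).map logCost).sum ≤
      ((c.length : ℝ) - (c.countP (isLarge C) : ℝ)) * Real.log (max 5 (1 + C ^ 2)) := by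
  induction c with
  | nil => simp
  | cons g c ih =>
    by_cases hg : isLarge C g = true
    · simp only [List.filter_cons, hg, Bool.not_true, Bool.false_eq_true, if_false,
        List.countP_cons_of_pos, List.length_cons]
      push_cast
      have : (c.length + 1 - ((c.countP (isLarge C) : ℝ) + 1)) = (c.length : ℝ) - c.countP (isLarge C) := by
        ring
      rw [this]
      exact ih
    · have hg' : isLarge C g = false := by simpa using hg
      simp only [List.filter_cons, hg', Bool.not_false, if_true, List.map_cons, List.sum_cons,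
        List.length_cons]
      rw [List.countP_cons_of_neg (by simp [hg'])]
      push_cast
      have := logCost_le_of_not_large hC g hg'
      nlinarith

/-- **Main theorem.** Let `gates` be a linear circuit with output wires `out` computing `F_n`,
`n ≥ 2`.
(1) For every predicate `bad` on gates, `(n - #bad gates) * log n` is at most the sum of the
logarithmic costs of the other gates (`log 5` for `±`, `log (1 + |c|^2)` for multiplication by `c`).
(2) In particular, for every `C ≥ 0`, if `t` gates multiply by a scalar of modulus larger than `C`,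
then `(n - t) * log n ≤ (size - t) * log (max 5 (1 + C^2))`. -/
theorem result {n : ℕ} (hn : 2 ≤ n) (gates : List GateOp) (out : Fin n → ℕ)
    (h : Computes n gates out) :
    (∀ bad : GateOp → Bool, ((n : ℝ) - (gates.countP bad : ℝ)) * Real.log n ≤
      ((gates.filter fun g => !bad g).map logCost).sum) ∧
    (∀ C : ℝ, 0 ≤ C →
      ((n : ℝ) - (gates.countP (isLarge C) : ℝ)) * Real.log n ≤
        ((gates.length : ℝ) - (gates.countP (isLarge C) : ℝ)) * Real.log (max 5 (1 + C ^ 2))) :=
  ⟨fun bad => main_ineq hn h bad,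
    fun C hC => (main_ineq hn h (isLarge C)).trans (sum_filter_le hC gates)⟩

end Vale.Agent.Results.P344.FewLargeScalars
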